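import Vale.Agent.P254.SP.H368.Tail

/-!
P254, (SP_0), row P3 (helper368): the tails of the four `PHI` of helper979 (note 15648).
-/

set_option autoImplicit false

namespace Vale.Agent.P254.SP.H368

open Set
open Vale.Agent.P254.H721

theorem R1_left {x : ℝ} (hx : x ≤ -5) :
    0 ≤ 14 / 100 * wf x + (-(30 / 1000)) + (-(101 / 10000)) * x + 65 / 10000 * x ^ 2
      - 1 / (4 * (128 / 1000)) * (14 / 100 * th x + (-(159 / 1000)) + (-(525 / 10000)) * x) ^ 2
      - 1 / (4 * (71 / 1000)) * (14 / 100 * wf x + (-(517 / 10000))) ^ 2 :=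
  phi_left (N := 517 / 10000) (by norm_num) (by norm_num) (by norm_num) (by norm_num) (by norm_num)
    rfl (by norm_num) (by norm_num) (by norm_num) (by norm_num) (by norm_num) hx

theorem R1_right {x : ℝ} (hx : 9 ≤ x) :
    0 ≤ 14 / 100 * wf x + (-(30 / 1000)) + (-(101 / 10000)) * x + 65 / 10000 * x ^ 2
      - 1 / (4 * (128 / 1000)) * (14 / 100 * th x + (-(159 / 1000)) + (-(525 / 10000)) * x) ^ 2
      - 1 / (4 * (71 / 1000)) * (14 / 100 * wf x + (-(517 / 10000))) ^ 2 :=
  phi_right (N := 185 / 10000) (by norm_num) (by norm_num) (by norm_num) (by norm_num) (by norm_num)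
    rfl (by norm_num) (by norm_num) (by norm_num) (by norm_num) (by norm_num) hx

theorem R2_left {x : ℝ} (hx : x ≤ -5) :
    0 ≤ 22 / 100 * wf x + (-(61 / 1000)) + (-(16 / 1000)) * x + 8 / 1000 * x ^ 2
      - 1 / (4 * (245 / 1000)) * (22 / 100 * th x + (-(249 / 1000)) + (-(823 / 10000)) * x) ^ 2
      - 1 / (4 * (398 / 10000)) * (22 / 100 * wf x + (-(81 / 1000))) ^ 2 :=
  phi_left (N := 81 / 1000) (by norm_num) (by norm_num) (by norm_num) (by norm_num) (by norm_num)
    rfl (by norm_num) (by norm_num) (by norm_num) (by norm_num) (by norm_num) hx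

theorem R2_right {x : ℝ} (hx : 9 ≤ x) :
    0 ≤ 22 / 100 * wf x + (-(61 / 1000)) + (-(16 / 1000)) * x + 8 / 1000 * x ^ 2
      - 1 / (4 * (245 / 1000)) * (22 / 100 * th x + (-(249 / 1000)) + (-(823 / 10000)) * x) ^ 2
      - 1 / (4 * (398 / 10000)) * (22 / 100 * wf x + (-(81 / 1000))) ^ 2 :=
  phi_right (N := 30 / 1000) (by norm_num) (by norm_num) (by norm_num) (by norm_num) (by norm_num)
    rfl (by norm_num) (by norm_num) (by norm_num) (by norm_num) (by norm_num) hx

theorem R3_left {x : ℝ} (hx : x ≤ -5) :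
    0 ≤ 24 / 100 * wf x + (-(72 / 1000)) + (-(177 / 10000)) * x + 71 / 10000 * x ^ 2
      - 1 / (4 * (338 / 1000)) * (24 / 100 * th x + (-(29 / 100)) + (-(9 / 100)) * x) ^ 2
      - 1 / (4 * (305 / 10000)) * (24 / 100 * wf x + (-(835 / 10000))) ^ 2 :=
  phi_left (N := 835 / 10000) (by norm_num) (by norm_num) (by norm_num) (by norm_num) (by norm_num)
    rfl (by norm_num) (by norm_num) (by norm_num) (by norm_num) (by norm_num) hx

theorem R3_right {x : ℝ} (hx : 9 ≤ x) :
    0 ≤ 24 / 100 * wf x + (-(72 / 1000)) + (-(177 / 10000)) * x + 71 / 10000 * x ^ 2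
      - 1 / (4 * (338 / 1000)) * (24 / 100 * th x + (-(29 / 100)) + (-(9 / 100)) * x) ^ 2
      - 1 / (4 * (305 / 10000)) * (24 / 100 * wf x + (-(835 / 10000))) ^ 2 :=
  phi_right (N := 37 / 1000) (by norm_num) (by norm_num) (by norm_num) (by norm_num) (by norm_num)
    rfl (by norm_num) (by norm_num) (by norm_num) (by norm_num) (by norm_num) hx

theorem R4_left {x : ℝ} (hx : x ≤ -5) :
    0 ≤ 245 / 1000 * wf x + (-(774 / 10000)) + (-(181 / 10000)) * x + 632 / 100000 * x ^ 2
      - 1 / (4 * (408 / 1000)) * (245 / 1000 * th x + (-(3126 / 10000)) + (-(92 / 1000)) * x) ^ 2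
      - 1 / (4 * (256 / 10000)) * (245 / 1000 * wf x + (-(822 / 10000))) ^ 2 :=
  phi_left (N := 822 / 10000) (by norm_num) (by norm_num) (by norm_num) (by norm_num) (by norm_num)
    rfl (by norm_num) (by norm_num) (by norm_num) (by norm_num) (by norm_num) hx

theorem R4_right {x : ℝ} (hx : 9 ≤ x) :
    0 ≤ 245 / 1000 * wf x + (-(774 / 10000)) + (-(181 / 10000)) * x + 632 / 100000 * x ^ 2
      - 1 / (4 * (408 / 1000)) * (245 / 1000 * th x + (-(3126 / 10000)) + (-(92 / 1000)) * x) ^ 2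
      - 1 / (4 * (256 / 10000)) * (245 / 1000 * wf x + (-(822 / 10000))) ^ 2 :=
  phi_right (N := 41 / 1000) (by norm_num) (by norm_num) (by norm_num) (by norm_num) (by norm_num)
    rfl (by norm_num) (by norm_num) (by norm_num) (by norm_num) (by norm_num) hx

end Vale.Agent.P254.SP.H368
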